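import Crest.Agent.R163.Q3.D.b4L.S0
import Crest.Agent.R163.Q3.D.b4L.F0
import Crest.Agent.R163.Q3.D.b4L.F1
import Crest.Agent.R163.Q3.D.b4L.F2
import Crest.Agent.R163.Q3.D.b4L.F3
import Crest.Agent.R163.Q3.D.b4L.F4
import Crest.Agent.R163.Q3.D.b4L.F5
import Crest.Agent.R163.Q3.D.b4L.F6
import Crest.Agent.R163.Q3.D.b4L.F7
import Crest.Agent.R163.Q3.D.b4L.F8
import Crest.Agent.R163.Q3.D.b4L.F9
import Crest.Agent.R163.Q3.D.b4L.F10
import Crest.Agent.R163.Q3.D.b4L.F11
import Crest.Agent.R163.Q3.D.b4L.F12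
import Crest.Agent.R163.Q3.D.b4L.F13
import Crest.Agent.R163.Q3.D.b4L.F14

set_option autoImplicit false
set_option maxRecDepth 100000
set_option linter.all false
set_option Elab.async false

namespace Crest.Agent.R163.b4L

theorem p0_0_0 : Ok par f0 Box3.unit C0 :=
  Ok.run hw hf0 ⟨209,19,19,1,9⟩ 59
    (.chk false 2703)
    (by decide +kernel)

theorem p0_1_0 : Ok par f1 Box3.unit C0 :=
  Ok.run hw hf1 ⟨209,19,19,1,9⟩ 59
    (.chk false 2703)
    (by decide +kernel)

theorem p0_2_0 : Ok par f2 Box3.unit C0 :=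
  Ok.run hw hf2 ⟨209,19,19,1,9⟩ 59
    (.chk false 2703)
    (by decide +kernel)

theorem p0_3_0 : Ok par f3 Box3.unit C0 :=
  Ok.run hw hf3 ⟨209,19,19,1,9⟩ 59
    (.chk false 2703)
    (by decide +kernel)

theorem p0_4_0 : Ok par f4 Box3.unit C0 :=
  Ok.run hw hf4 ⟨209,19,19,1,9⟩ 59
    (.chk false 2703)
    (by decide +kernel)

theorem p0_5_0 : Ok par f5 Box3.unit C0 :=
  Ok.run hw hf5 ⟨209,19,19,1,9⟩ 59
    (.chk false 2703)
    (by decide +kernel)

theorem p0_6_0 : Ok par f6 Box3.unit C0 :=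
  Ok.run hw hf6 ⟨209,19,19,1,9⟩ 59
    (.chk false 2703)
    (by decide +kernel)

theorem p0_7_0 : Ok par f7 Box3.unit C0 :=
  Ok.run hw hf7 ⟨209,19,19,1,9⟩ 59
    (.chk false 2703)
    (by decide +kernel)

theorem p0_8_0 : Ok par f8 Box3.unit C0 :=
  Ok.run hw hf8 ⟨362,19,19,1,9⟩ 59
    (.part 12010646998614015 (.chk false 2703) (.split 1 (.part 8169 (.chk false 2703) (.split 0 (.chk false 1351) (.split 1 (.part 3 (.chk false 1351) (.split 0 (.chk false 1351) (.split 1 (.chk false 1351) (.chk false 1351)))) (.chk false 1351)))) (.part 31 (.chk false 1351) (.split 0 (.chk false 2703) (.split 1 (.part 195 (.chk false 2703) (.split 0 (.chk false 2703) (.split 1 (.part 14 (.chk false 2703) (.split 0 (.chk false 2703) (.split 1 (.chk false 2703) (.chk false 2703)))) (.part 11 (.chk false 2703) (.split 0 (.chk false 2703) (.split 1 (.chk false 2703) (.chk false 2703))))))) (.part 189 (.chk false 2703) (.split 0 (.chk false 2703) (.split 0 (.chk false 2703) (.split 1 (.chk false 2703)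 (.chk false 2703))))))))))
    (by decide +kernel)

theorem p0_9_0 : Ok par f9 Box3.unit C0 :=
  Ok.run hw hf9 ⟨209,19,19,1,9⟩ 59
    (.chk false 2703)
    (by decide +kernel)

theorem p0_10_0 : Ok par f10 Box3.unit C0 :=
  Ok.run hw hf10 ⟨468,19,19,1,9⟩ 59
    (.part 18012749242040319 (.chk false 2703) (.split 0 (.split 1 (.chk false 0) (.split 0 (.chk false 0) (.split 1 (.chk false 0) (.split 0 (.split 1 (.chk false 0) (.split 0 (.chk false 0) (.split 1 (.chk false 0) (.split 0 (.chk false 0) (.part 1 (.chk false 0) (.split 1 (.chk false 0) (.split 0 (.split 1 (.chk false 0) (.split 0 (.chk false 0) (.chk false 0))) (.chk false 0)))))))) (.chk false 0))))) (.chk false 0)))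
    (by decide +kernel)

theorem p0_11_0 : Ok par f11 Box3.unit C0 :=
  Ok.run hw hf11 ⟨423,25,25,1,10⟩ 59
    (.part 4504149381353471 (.chk false 1910) (.part 174143 (.chk true 0) (.split 0 (.chk false 2703) (.part 1 (.chk false 1351) (.split 0 (.chk false 2703) (.split 1 (.part 2017 (.chk false 2703) (.split 0 (.chk false 2703) (.split 1 (.part 8 (.chk false 2703) (.split 0 (.chk false 2703) (.split 1 (.part 4 (.chk false 2703) (.split 1 (.chk false 0) (.chk false 0))) (.chk false 2703)))) (.part 7 (.chk false 2703) (.split 0 (.chk false 2703) (.split 1 (.chk false 2703) (.chk false 2703))))))) (.part 103 (.chk false 1351) (.part 9 (.chk true 0) (.split 0 (.chk true 0) (.split 0 (.part 7 (.chk true 0) (.split 1 (.chk false 2703) (.chk true 0))) (.split 1 (.chk false 2703) (.chk true 0))))))))))))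
    (by decide +kernel)

theorem p0_12_0 : Ok par f12 Box3.unit C0 :=
  Ok.run hw hf12 ⟨321,25,25,1,10⟩ 59
    (.part 37383395086335 (.chk false 1351) (.part 259263 (.chk true 0) (.split 1 (.chk false 2703) (.part 4 (.chk true 0) (.split 0 (.chk false 2703) (.part 4 (.chk false 0) (.chk true 0)))))))
    (by decide +kernel)

theorem p0_13_0 : Ok par f13 Box3.unit C0 :=
  Ok.run hw hf13 ⟨263,25,25,1,10⟩ 59
    (.part 177840278736895 (.chk false 675) (.chk true 0))
    (by decide +kernel)

theorem p0_14_0 : Ok par f14 Box3.unit C0 :=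
  Ok.run hw hf14 ⟨312,25,25,1,10⟩ 59
    (.part 177702839783423 (.chk false 0) (.part 117440511 (.chk true 0) (.split 1 (.chk true 0) (.chk true 0))))
    (by decide +kernel)


end Crest.Agent.R163.b4L
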